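import Crest.Agent.LP.Defs

/-! Module E2: choice of the parameters. -/

set_option autoImplicit false

namespace Crest.Agent.LP

theorem params' (C c : ℝ) (hC : 0 < C) (hc : 0 < c) (m h : ℕ) (hm : 0 < m) (hh : 0 < h) :
    ∃ η : ℝ, 0 < η ∧ η ≤ C ∧ ∀ δ0 : ℝ, 0 < δ0 → ∃ w N : ℕ, 0 < w ∧ 0 < N ∧
      ∃ δ' η' : ℝ, 0 < δ' ∧ 0 < η' ∧ δ' ≤ δ0 / 2 ∧
      8 * C * δ' + 56 * C ^ 2 * h / (bigM m h w N : ℝ) ≤ (c / (200 * m ^ 2 * w)) ^ 2 ∧
      12 * C * (η + η') + 32 * C ^ 3 * δ' / δ0 ^ 2 + 224 * C ^ 4 / (w * δ0 ^ 2)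
        + 56 * C ^ 2 * h / (bigM m h w N : ℝ) ≤ (c / (200 * m ^ 2)) ^ 2 := by
  have hmR : (0 : ℝ) < m := by exact_mod_cast hm
  have hhR : (0 : ℝ) < h := by exact_mod_cast hh
  obtain ⟨A, hA⟩ : ∃ A : ℝ, A = (c / (200 * m ^ 2)) ^ 2 := ⟨_, rfl⟩
  have hApos : 0 < A := by rw [hA]; positivity
  have hA60 : 0 < A / (60 * C) := by positivity
  refine ⟨min C (A / (60 * C)), lt_min hC hA60, min_le_left _ _, ?_⟩
  intro δ0 hδ0
  obtain ⟨w, hw⟩ := exists_nat_gt (1120 * C ^ 4 / (A * δ0 ^ 2))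
  have hwR : (0 : ℝ) < w := lt_of_le_of_lt (by positivity) hw
  have hwpos : 0 < w := by exact_mod_cast hwR
  obtain ⟨D, hD⟩ : ∃ D : ℝ, D = (c / (200 * m ^ 2 * w)) ^ 2 := ⟨_, rfl⟩
  have hDpos : 0 < D := by rw [hD]; positivity
  have hmn : 0 < min (A / 5) (D / 2) := lt_min (by positivity) (by positivity)
  obtain ⟨N, hN⟩ := exists_nat_gt (56 * C ^ 2 * h / min (A / 5) (D / 2))
  have hNR : (0 : ℝ) < N := lt_of_le_of_lt (by positivity) hN
  have hNpos : 0 < N := by exact_mod_cast hNR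
  have hbig : (N : ℝ) ≤ (bigM m h w N : ℝ) := by
    have h1 : N ≤ bigM m h w N := by
      unfold bigM
      have h2 : 1 ≤ 1000 * (m * h * w) := by
        have := Nat.mul_pos (Nat.mul_pos hm hh) hwpos
        omega
      calc N = 1 * N := (one_mul N).symm
        _ ≤ (1000 * (m * h * w)) * N := Nat.mul_le_mul_right _ h2
        _ = _ := by ring
    exact_mod_cast h1
  have hbig0 : (0 : ℝ) < (bigM m h w N : ℝ) := lt_of_lt_of_le hNR hbig
  have hkey : 56 * C ^ 2 * h / (bigM m h w N : ℝ) ≤ min (A / 5) (D / 2) := by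
    rw [div_le_iff₀ hbig0]
    rw [div_lt_iff₀ hmn] at hN
    calc 56 * C ^ 2 * (h : ℝ) ≤ N * min (A / 5) (D / 2) := hN.le
      _ ≤ (bigM m h w N : ℝ) * min (A / 5) (D / 2) := mul_le_mul_of_nonneg_right hbig hmn.le
      _ = _ := by ring
  have hk1 := hkey.trans (min_le_left _ _)
  have hk2 := hkey.trans (min_le_right _ _)
  have hδ1 : 0 < D / (16 * C) := by positivity
  have hδ2 : 0 < A * δ0 ^ 2 / (160 * C ^ 3) := by positivity
  refine ⟨w, N, hwpos, hNpos, min (δ0 / 2) (min (D / (16 * C)) (A * δ0 ^ 2 / (160 * C ^ 3))),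
    A / (60 * C), lt_min (by positivity) (lt_min hδ1 hδ2), hA60, min_le_left _ _, ?_, ?_⟩
  · rw [← hD]
    have h1 : min (δ0 / 2) (min (D / (16 * C)) (A * δ0 ^ 2 / (160 * C ^ 3))) ≤ D / (16 * C) :=
      (min_le_right _ _).trans (min_le_left _ _)
    have h2 : 8 * C * min (δ0 / 2) (min (D / (16 * C)) (A * δ0 ^ 2 / (160 * C ^ 3)))
        ≤ 8 * C * (D / (16 * C)) := mul_le_mul_of_nonneg_left h1 (by positivity)
    have h3 : 8 * C * (D / (16 * C)) = D / 2 := by field_simp; ring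
    linarith
  · rw [← hA]
    have h1 : min (δ0 / 2) (min (D / (16 * C)) (A * δ0 ^ 2 / (160 * C ^ 3)))
        ≤ A * δ0 ^ 2 / (160 * C ^ 3) := (min_le_right _ _).trans (min_le_right _ _)
    have h2 : 32 * C ^ 3 * min (δ0 / 2) (min (D / (16 * C)) (A * δ0 ^ 2 / (160 * C ^ 3))) / δ0 ^ 2
        ≤ 32 * C ^ 3 * (A * δ0 ^ 2 / (160 * C ^ 3)) / δ0 ^ 2 := by gcongr
    have h3 : 32 * C ^ 3 * (A * δ0 ^ 2 / (160 * C ^ 3)) / δ0 ^ 2 = A / 5 := by field_simp; ring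
    have h4 : 224 * C ^ 4 / (w * δ0 ^ 2) ≤ A / 5 := by
      rw [div_lt_iff₀ (by positivity)] at hw
      rw [div_le_iff₀ (by positivity)]
      nlinarith
    have h5 : 12 * C * (min C (A / (60 * C)) + A / (60 * C)) ≤ 2 * A / 5 := by
      have h6 : min C (A / (60 * C)) ≤ A / (60 * C) := min_le_right _ _
      have h7 : 12 * C * (min C (A / (60 * C)) + A / (60 * C))
          ≤ 12 * C * (A / (60 * C) + A / (60 * C)) := by gcongr
      have h8 : 12 * C * (A / (60 * C) + A / (60 * C)) = 2 * A / 5 := by field_simp; ring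
      linarith
    linarith

end Crest.Agent.LP
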